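import Crest.Agent.X212.Pb50.End
import Crest.Agent.X212.Hm83.Poi
import Crest.Agent.X212.Nka63.B
import Crest.Agent.X212.Grp76.Pt

/-! # Row 212, MS-GRP-P (helper81): the Poincaré inequality of a piece with irreducible limits -/

set_option autoImplicit false
set_option linter.unusedSectionVars false
noncomputable section
open scoped Manifold ContDiff Topology InnerProductSpace
open MeasureTheory Set Function Filter

namespace Crest.Agent.X212.Grs81
open An An.Pre Sob92 Sw Sw.En3 Cyf70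
open M (Mf pm)
open Grp76 (tp)

section gen
variable {E : Type} [NormedAddCommGroup E] [NormedSpace ℝ E] [FiniteDimensional ℝ E]
  [MeasurableSpace E] [BorelSpace E]
  {HM : Type} [TopologicalSpace HM] {I : ModelWithCorners ℝ E HM} [I.Boundaryless]
  {M : Type} [TopologicalSpace M] [ChartedSpace HM M] [IsManifold I ∞ M]
  [MeasurableSpace M] {ι : Type} [Fintype ι]

/-- functions with vanishing derivatives are constant -/
theorem const_D {N : Type} [NormedAddCommGroup N] [NormedSpace ℝ N] [PreconnectedSpace M]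
    (F : Pre I M ι) {u : M → N} (hu : MDifferentiable I 𝓘(ℝ, N) u)
    (h : ∀ a x, F.D a u x = 0) (x y : M) : u x = u y := by
  refine ((IsLocallyConstant.iff_eventually_eq u).2 fun x => ?_).apply_eq_of_preconnectedSpace x y
  obtain ⟨r, hr, hb⟩ := Metric.isOpen_iff.1 (isOpen_extChartAt_target (I := I) x) _
    (mem_extChartAt_target x)
  have md : ∀ z ∈ Metric.ball (extChartAt I x x) r,
      MDifferentiableAt 𝓘(ℝ, E) I (extChartAt I x).symm z := fun z hz =>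
    ((contMDiffOn_extChartAt_symm (n := ∞) x).contMDiffAt
      ((isOpen_extChartAt_target x).mem_nhds (hb hz))).mdifferentiableAt (by simp)
  have m0 : ∀ z, mfderiv I 𝓘(ℝ, N) u z = 0 := fun z => ContinuousLinearMap.coe_injective
    (LinearMap.ext_on_range (F.span z) fun a => h a z)
  have k := fun z hz => Metric.isOpen_ball.is_const_of_fderiv_eq_zero (𝕜 := ℝ)
    (f := u ∘ (extChartAt I x).symm) (convex_ball _ r).isPreconnected
    (fun z hz => ((hu _).comp z (md z hz)).differentiableAt.differentiableWithinAt)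
    (fun z hz => by
      rw [← mfderiv_eq_fderiv, mfderiv_comp z (hu _) (md z hz), m0]
      rfl) (x := z) hz (Metric.mem_ball_self hr)
  filter_upwards [extChartAt_source_mem_nhds (I := I) x,
    (continuousAt_extChartAt (I := I) x).eventually (Metric.ball_mem_nhds _ hr)] with z h1 h2
  simpa only [comp_apply, (extChartAt I x).left_inv h1, extChartAt_to_inv] using k _ h2

end gen

variable {κ lam ν : Type} [Fintype κ] [Fintype lam] [Fintype ν] [DecidableEq ν]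
  {X : Mf 4} {nc : ℕ} {V : Type} [NormedAddCommGroup V] [InnerProductSpace ℝ V]
  [FiniteDimensional ℝ V]

variable (V) in
/-- the cross-section -/
theorem poiY (e : En3 κ lam ν) {Φ : e.Y.M → Eu ν} (hΦ : Sm e.Y.I Φ) (h0 : ∃ y, Φ y ≠ 0) :
    ∃ c ≥ 0, ∀ (ξ : e.Y.M → V) (g : e.Y.M → ℝ), Sm e.Y.I ξ → Continuous g →
      (∀ y, ∑ a, ‖e.D.F.D a ξ y‖ ^ 2 + ‖Φ y‖ ^ 2 * ‖ξ y‖ ^ 2 ≤ g y) →
      ∫ y, ‖ξ y‖ ^ 2 ∂e.D.F.μ ≤ c * ∫ y, g y ∂e.D.F.μ := by
  have e1 : ∀ y (v : V), ‖(tp fun a => Φ y a • ContinuousLinearMap.id ℝ V) v‖ ^ 2 =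
      ‖Φ y‖ ^ 2 * ‖v‖ ^ 2 := fun y v => by
    rw [PiLp.norm_sq_eq_of_L2, PiLp.norm_sq_eq_of_L2, Finset.sum_mul]
    simp [norm_smul, mul_pow]
  have e2 : ∀ (ξ : e.Y.M → V) a y, Wz78.nab e.Y.I e.D.F.e (fun _ _ => 0) a ξ y = e.D.F.D a ξ y :=
    fun ξ a y => add_zero _
  obtain ⟨c, c0, h⟩ := Hm83.poi_gen (V := V) e.D.F (fun _ => by rw [e.Y.dim]; omega)
    (A := fun _ _ => 0) (fun _ => contMDiff_const) (fun _ _ _ _ => by simp)
    (T := fun y => tp fun a => Φ y a • ContinuousLinearMap.id ℝ V)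
    (by
      simp only [Grp76.tp_eq]
      exact (Cb_sum (F := e.D.F.toPre) _ fun a _ => Cb_comp (Cb_const _) (Cb_smul (Cb_clm
        (EuclideanSpace.proj a) (Cb_of_compact hΦ)) (Cb_const _))).choose_spec.1) fun ξ hξ h1 h2 => by
      obtain ⟨y₀, hy⟩ := h0
      have h3 := e1 y₀ (ξ y₀)
      rw [h2, norm_zero, zero_pow two_ne_zero, eq_comm, mul_eq_zero] at h3
      funext y
      rw [const_D e.D.F.toPre (hξ.mdifferentiable (by simp)) (fun a x => (e2 ξ a x).symm.trans (h1 a x))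
        y y₀]
      simpa [hy] using h3
  exact ⟨c, c0, fun ξ g hξ hg k => h ξ g hξ hg fun y => by simpa only [e1, e2] using k y⟩

/-- an end -/
theorem poiE {e : En3 κ lam ν} {b : Bg X.I X.M κ lam ν nc} (K : Nk e b) {Φ : e.Y.M → Eu ν} {c : ℝ}
    (hc : ∀ (ξ : e.Y.M → V) (g : e.Y.M → ℝ), Sm e.Y.I ξ → Continuous g →
      (∀ y, ∑ a, ‖e.D.F.D a ξ y‖ ^ 2 + ‖Φ y‖ ^ 2 * ‖ξ y‖ ^ 2 ≤ g y) →
      ∫ y, ‖ξ y‖ ^ 2 ∂e.D.F.μ ≤ c * ∫ y, g y ∂e.D.F.μ) {J : Set ℝ} (hJ : MeasurableSet J)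
    {u : X.M → V} {g : X.M → ℝ} (hu : Sm X.I u) (iu : Integrable (fun x => ‖u x‖ ^ 2) b.F.μ)
    (hg : Continuous g) (ig : Integrable g b.F.μ) (h : ∀ x ∈ K.ψ.source, x.2 ∈ J →
      ∑ a, ‖b.F.D a u (K.ψ x)‖ ^ 2 + ‖Φ x.1‖ ^ 2 * ‖u (K.ψ x)‖ ^ 2 ≤ g (K.ψ x)) :
    ∫ x in K.ψ.target ∩ K.tm ⁻¹' J, ‖u x‖ ^ 2 ∂b.F.μ ≤
      c * ∫ x in K.ψ.target ∩ K.tm ⁻¹' J, g x ∂b.F.μ := by
  have mA : MeasurableSet (K.ψ.target ∩ K.tm ⁻¹' J) :=
    K.ψ.open_target.measurableSet.inter (K.cont.measurable hJ)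
  have z : ∀ f : X.M → ℝ, ∀ x ∉ K.ψ.target, (K.ψ.target ∩ K.tm ⁻¹' J).indicator f x = 0 :=
    fun f x hx => indicator_of_notMem (fun k => hx k.1) _
  rw [← integral_indicator mA, ← integral_indicator mA,
    Nka63.integral_neck K.toNk (iu.indicator mA) (z _),
    Nka63.integral_neck K.toNk (ig.indicator mA) (z _), ← integral_const_mul]
  refine setIntegral_mono_on (Nka63.integrableOn_slice K.toNk (iu.indicator mA) (z _))
    ((Nka63.integrableOn_slice K.toNk (ig.indicator mA) (z _)).const_mul c) (Nka63.meas_J K.toNk)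
    fun t ht => ?_
  have hs : ∀ y, (y, t) ∈ K.ψ.source := fun y => K.mem_src.2 ht
  by_cases hJ : t ∈ J
  · have m : ∀ y, K.ψ (y, t) ∈ K.ψ.target ∩ K.tm ⁻¹' J := fun y =>
      ⟨K.ψ.map_source (hs y), by rw [mem_preimage, K.tm_ψ _ (hs y)]; exact hJ⟩
    simp only [indicator_of_mem (m _)]
    have sa := fun y => Pb50.sa_ψ K (hs y) (hu _)
    refine hc _ _ (fun y => ContMDiffAt.comp (f := fun y => (y, t)) y (sa y)
      (contMDiffAt_id.prodMk contMDiffAt_const))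
      (hg.comp (continuous_iff_continuousAt.2 fun y => (K.ψ.continuousAt (hs y)).comp
        (f := fun y => (y, t)) (by fun_prop))) fun y => le_trans ?_ (h _ (hs y) hJ)
    rw [Fintype.sum_option]
    refine add_le_add ((le_of_eq (Finset.sum_congr rfl fun a _ => ?_)).trans
      (le_add_of_nonneg_left (sq_nonneg _))) le_rfl
    rw [Pb50.D_ψ K (hs y)]
    exact congrArg (‖·‖ ^ 2) (D_some_at e.D.F.toPre ((sa y).mdifferentiableAt (by simp)) a).symm
  · have m : ∀ y, K.ψ (y, t) ∉ K.ψ.target ∩ K.tm ⁻¹' J := fun y k =>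
      hJ (by simpa only [mem_preimage, K.tm_ψ _ (hs y)] using k.2)
    simp [indicator_of_notMem (m _)]

variable {N : Type} [Fintype N] {e : N → En3 κ lam ν} {P : Pz X nc e} {β : BCs e}

variable (V) in
/-- **Poincaré inequality**: the gradient, the base spinor and a compact part control `L²`. -/
theorem poiX (hP : P.OK) (hβ : P.Cr β) (h0 : ∀ i s, P.Inf i s → ∃ y, (β i s).Φ y ≠ 0) :
    ∃ (χ : X.M → ℝ) (c : ℝ), Sm X.I χ ∧ HasCompactSupport χ ∧ 0 ≤ c ∧
      ∀ (u : X.M → V) (g : X.M → ℝ), Sm X.I u → HasCompactSupport u → Continuous g →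
        Integrable g P.bg.F.μ →
        (∀ x, ∑ a, ‖P.bg.F.D a u x‖ ^ 2 + ‖(P.base β).Φ x‖ ^ 2 * ‖u x‖ ^ 2 ≤ g x) →
        ∫ x, ‖u x‖ ^ 2 ∂P.bg.F.μ ≤ ∫ x, ‖χ x • u x‖ ^ 2 ∂P.bg.F.μ + c * ∫ x, g x ∂P.bg.F.μ := by
  classical
  have h1 : ∀ p : N × Bool, ∃ (T c : ℝ) , 0 ≤ c ∧ ∀ K ∈ P.nk p.1, K.Inf p.2 → ∀ T', T ≤ T' →
      ∀ (u : X.M → V) (g : X.M → ℝ), Sm X.I u → Integrable (fun x => ‖u x‖ ^ 2) P.bg.F.μ →
        Continuous g → Integrable g P.bg.F.μ →
        (∀ x, ∑ a, ‖P.bg.F.D a u x‖ ^ 2 + ‖(P.base β).Φ x‖ ^ 2 * ‖u x‖ ^ 2 ≤ g x) →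
        ∫ x in K.ψ.target ∩ K.tm ⁻¹' {t | T' < pm p.2 * t}, ‖u x‖ ^ 2 ∂P.bg.F.μ ≤
          c * ∫ x, g x ∂P.bg.F.μ := fun ⟨i, s⟩ => by
    by_cases hK : ∃ K ∈ P.nk i, K.Inf s
    · obtain ⟨c, c0, hc⟩ := poiY V (e i) (sm_slice_fst (hβ i s hK).1.sΦ 0) (h0 i s hK)
      obtain ⟨K, hK, hs⟩ := hK
      obtain ⟨T, -, hT⟩ := Pb50.nd_basis.eventually_iff.1
        (Pb50.base_ev hP (g := fun i s => (fz (β i s)).Φ) hK hs)
      refine ⟨T, c, c0, fun K' hK' _ T' hT' u g hu iu hg ig h => ?_⟩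
      obtain rfl := Option.mem_unique hK hK'
      refine (poiE K hc (isOpen_lt continuous_const (by fun_prop)).measurableSet hu iu hg ig
        fun x hx ht => le_trans (le_of_eq ?_) (h _)).trans (mul_le_mul_of_nonneg_left
          (setIntegral_le_integral ig (.of_forall fun x => le_trans ?_ (h x))) c0)
      · exact congrArg (fun v : Eu ν => _ + ‖v‖ ^ 2 * _) (hT (hT'.trans_lt (mem_ofPred.1 ht))).symm
      · positivity
    · exact ⟨0, 0, le_rfl, fun K h1 h2 => (hK ⟨K, h1, h2⟩).elim⟩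
  choose T c c0 hT using h1
  obtain ⟨T', hT'⟩ := Finite.exists_le T
  obtain ⟨χ, h2, h3, -, h4⟩ := hP.bg.tame.choose_spec.exh _ (hP.cpt T')
  refine ⟨χ, ∑ p, c p, h2.1, h3, Finset.sum_nonneg fun p _ => c0 p, fun u g hu hc hg ig h => ?_⟩
  let A : N × Bool → Set X.M := fun p => (P.nk p.1).elim ∅ fun K =>
    if K.Inf p.2 then K.ψ.target ∩ K.tm ⁻¹' {t | T' < pm p.2 * t} else ∅
  have iu := int_sq (FL_of_hcs (F := P.bg.F.toPre) 0 hu hc)
  have iχ : Integrable (fun x => ‖χ x • u x‖ ^ 2) P.bg.F.μ := int_sq (FL_of_hcs (F := P.bg.F.toPre) 0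
    (h2.1.smul hu) (hc.mono fun x hx h0 => hx (by simp [h0])))
  have g0 : 0 ≤ ∫ x, g x ∂P.bg.F.μ := integral_nonneg fun x => le_trans (by positivity) (h x)
  have hA : ∀ p, MeasurableSet (A p) ∧
      ∫ x in A p, ‖u x‖ ^ 2 ∂P.bg.F.μ ≤ c p * ∫ x, g x ∂P.bg.F.μ := fun p => by
    have := mul_nonneg (c0 p) g0
    cases hK : P.nk p.1 with
    | none => simpa [A, hK] using this
    | some K =>
      by_cases hs : K.Inf p.2
      · simp only [A, hK, Option.elim_some, if_pos hs]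
        exact ⟨K.ψ.open_target.measurableSet.inter (K.cont.measurable
          (isOpen_lt continuous_const (by fun_prop)).measurableSet),
          hT p K hK hs T' (hT' p) u g hu iu hg ig h⟩
      · simpa [A, hK, hs] using this
  have i2 := fun p => iu.indicator (hA p).1
  rw [Finset.sum_mul]
  refine (integral_mono iu (iχ.add (integrable_finsetSum Finset.univ fun p _ => i2 p))
    fun x => ?_).trans ?_
  · have p0 : ∀ p, 0 ≤ (A p).indicator (fun x => ‖u x‖ ^ 2) x := fun p =>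
      indicator_nonneg (fun _ _ => sq_nonneg _) x
    by_cases hx : x ∈ P.core T'
    · simp only [Pi.add_apply, h4 x hx, one_smul]
      exact le_add_of_nonneg_right (Finset.sum_nonneg fun p _ => p0 p)
    · simp only [Pz.core, mem_ofPred, not_forall, not_not] at hx
      obtain ⟨i, s, K, hK, hs, z, hz, rfl⟩ := hx
      have hz' := K.mem_src.2 hz.2.1
      refine le_add_of_nonneg_of_le (sq_nonneg _) (le_trans (le_of_eq ?_)
        (Finset.single_le_sum (fun p _ => p0 p) (Finset.mem_univ (i, s))))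
      refine (indicator_of_mem ?_ fun x => ‖u x‖ ^ 2).symm
      simp only [A, Option.mem_def.1 hK, Option.elim_some, if_pos hs]
      exact ⟨K.ψ.map_source hz', by rw [mem_preimage, K.tm_ψ _ hz']; exact hz.2.2⟩
  · rw [integral_add' iχ (integrable_finsetSum Finset.univ fun p _ => i2 p),
      integral_finsetSum _ fun p _ => i2 p]
    refine add_le_add le_rfl (Finset.sum_le_sum fun p _ => ?_)
    rw [integral_indicator (hA p).1]
    exact (hA p).2

end Crest.Agent.X212.Grs81
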