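import Crest.Agent.X212.Grs81.S
import Crest.Agent.X212.Grs81.Poi

/-! # Row 212, MS-GRP-P (helper81): properness and freeness of the gauge action -/

set_option autoImplicit false
set_option linter.unusedSectionVars false
noncomputable section
open scoped Manifold ContDiff Topology InnerProductSpace
open MeasureTheory Set Function Filter

namespace Crest.Agent.X212.Grs81
open An An.Pre Sob92 Sw Sw.En3 Map77.S
open M (Mf)
open Grp76 (pj GA onF)
open Pb50 (cB cB_apply)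

theorem cpt_prod {R A B : Type*} [NormedAddCommGroup R] [NormedSpace ℝ R] [NormedAddCommGroup A]
    [NormedSpace ℝ A] [NormedAddCommGroup B] [NormedSpace ℝ B] {f : R →L[ℝ] A} {g : R →L[ℝ] B}
    (hf : IsCompactOperator f) (hg : IsCompactOperator g) : IsCompactOperator (f.prod g) :=
  let ⟨K, a, b⟩ := hf; let ⟨L, c, d⟩ := hg; ⟨K ×ˢ L, a.prod c, inter_mem b d⟩

theorem sq_cs {ν : Type} [Fintype ν] [DecidableEq ν] {J : En ν} (h : J * J = -1) (hs : Skw J) (z : ℂ)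
    (a : Eu ν) : ‖cs J z a‖ ^ 2 = ‖a‖ ^ 2 * ‖z‖ ^ 2 := by
  have h1 : ⟪J a, J a⟫_ℝ = ⟪a, a⟫_ℝ := by
    rw [hs, show J (J a) = -a from congrArg (fun T : En ν => T a) h, inner_neg_right, neg_neg]
  rw [Complex.sq_norm, Complex.normSq_apply, ← real_inner_self_eq_norm_sq, ← real_inner_self_eq_norm_sq]
  simp only [cs, inner_add_left, inner_add_right, real_inner_smul_left, real_inner_smul_right, h1,
    hs a a]
  ring

section gen
variable {X : Mf 4} {ι U V W : Type} [Fintype ι] [NormedAddCommGroup U] [InnerProductSpace ℝ U]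
  [FiniteDimensional ℝ U] [NormedAddCommGroup V] [InnerProductSpace ℝ V] [FiniteDimensional ℝ V]
  [NormedAddCommGroup W] [InnerProductSpace ℝ W] [FiniteDimensional ℝ W] {F : Fr X.I X.M ι}
  {p : X.M → U →L[ℝ] U} {q : X.M → V →L[ℝ] V} {r : X.M → W →L[ℝ] W} {S : ℝ} {k j : ℕ}

theorem le_zero {h : F.H k p} {g : F.H j q} {u : X.M → U} {w : X.M → V} (H : Is F.toPre k p h u)
    (G : Is F.toPre j q g w) {C : ℝ} (hC : ∀ x, ‖u x‖ ≤ C * ‖w x‖) :
    ‖F.incl k 0 p h‖ ≤ C * ‖F.incl j 0 q g‖ := by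
  rw [← norm_toL2, ← norm_toL2]
  refine Lp.norm_le_mul_norm_of_ae_le_mul ?_
  filter_upwards [H, G] with x h1 h2
  rw [h1, h2]
  exact hC x

theorem sq_zero {h : F.H k p} {u : X.M → U} (H : Is F.toPre k p h u) :
    ‖F.incl k 0 p h‖ ^ 2 = ∫ x, ‖u x‖ ^ 2 ∂F.μ := by
  rw [H.norm_zero, nrm_sq]; rfl

/-- products with a fixed factor are compact in `L²` -/
theorem cpt_bil (hS : Sup F.toPre S) (hk : 7 ≤ k) {β : U →L[ℝ] V →L[ℝ] W}
    (hm : Maps₂ p q r fun _ => β) (b : F.H (k + 1) q) {B : F.H (k + 2) p →L[ℝ] F.H (k + 1) r}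
    (hB : ∀ u x, F.val _ _ (B u) x = β (F.val _ _ u x) (F.val _ _ b x)) :
    IsCompactOperator (F.incl (k + 1) 0 r ∘L B) := by
  have k1 : 4 ≤ k + 1 := by omega
  have vb := val_bilH hS (Lev.left (k := k + 2) (l := k + 1) (by omega) (by omega)) k1 (Cb_const β) hm
  obtain rfl : B = (F.bilH (k + 2) (k + 1) p q r (k + 1) fun _ => β).flip b :=
    ContinuousLinearMap.ext fun u => val_injective hS k1 (funext fun x => (hB u x).trans (vb u b x).symm)
  clear hB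
  induction b using H_ind with
  | hP => exact isClosed_setOfPred_isCompactOperator.preimage (f := fun b => F.incl (k + 1) 0 r ∘L
      (F.bilH (k + 2) (k + 1) p q r (k + 1) fun _ => β).flip b) (by fun_prop)
  | h φ =>
    have s1 : Sm X.I fun x => β.flip (φ.1 x) := β.flip.contMDiff.comp φ.2.1
    have c1 : HasCompactSupport fun x => β.flip (φ.1 x) := φ.2.2.1.comp_left (map_zero _)
    have m1 : Maps p r fun x => β.flip (φ.1 x) := fun x z hz => hm x z _ hz (φ.2.2.2 x)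
    convert Cht98.rellich_mul (F := F.toPre) s1 c1 m1 (show 0 < k + 2 by omega) using 2
    refine ContinuousLinearMap.ext fun u => Is.unique ?_
      (((Is.val hS (by omega) u).incl (Nat.zero_le _)).mulH (Cb_of_hcs s1 c1) m1)
    refine ((Is.val hS k1 _).incl (Nat.zero_le _)).congr (.of_forall fun x => (vb u _ x).trans ?_)
    rw [val_toH hS k1]
    rfl

end gen

variable {κ lam ν : Type} [Fintype κ] [Fintype lam] [Fintype ν] [DecidableEq ν]
  {X : Mf 4} {d : Dt κ lam ν} {N : Type} [Fintype N] {ty : N → d.𝓔} {nc nr : ℕ}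
  {T : Type} [NormedAddCommGroup T] [NormedSpace ℝ T] [FiniteDimensional ℝ T]
  {s : Pz X 0 fun i => d.e (ty i)} {σ : Cel s nc nr T} {k : ℕ} (Γ : Ga σ k)
  (hs : s.OK) (hk : 7 ≤ k)

/-- `(z, α) ↦ i z α_a` -/
def iz (a : Option κ) : ℂ →L[ℝ] Fm (Option κ) ℝ →L[ℝ] ℂ :=
  (ContinuousLinearMap.mul ℝ ℂ).bilinearComp (.id ℝ _) (iR ∘L pj ℝ a)

include hs hk

theorem DH_eq (v w : σ.C k) (u : RC s k) (a : Option κ) : DH s.bg.F.toPre (k + 1) _ a u =
    s.bg.F.mulH (k + 1) _ (triv X.M ℂ) (fun _ => pj ℂ a) (Γ.D.T v w u).1 +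
      s.bg.F.bilH (k + 2) (k + 1) _ _ (triv X.M ℂ) (k + 1) (fun _ => iz a) u (v.1 - w.1) := by
  have hS := sup hs.bg
  have k1 : 4 ≤ k + 1 := by omega
  refine val_injective hS k1 (funext fun x => ?_)
  rw [← (val_DH hS k1 u).2 a, val_add, Pi.add_apply, val_mulH hS k1 (Cb_const _) (Maps.triv _),
    val_bilH hS (Lev.left (by omega) (by omega)) k1 (Cb_const _) (Maps₂.triv _), Grp76.pj_apply,
    val_T1, ← iR_apply]
  exact (sub_add_cancel _ _).symm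

theorem est_lev (v w : σ.C k) (j : ℕ) (hj : j ≤ k + 2) : ∃ c, 0 ≤ c ∧ ∀ u : RC s k,
    ‖s.bg.F.incl (k + 2) j _ u‖ ≤ c * (‖(Γ.D.T v w u).1‖ + ‖s.bg.F.incl (k + 2) 0 _ u‖) := by
  induction j with
  | zero => exact ⟨1, zero_le_one, fun u => by simp⟩
  | succ j ih =>
    obtain ⟨c, c0, hc⟩ := ih (by omega)
    have hj' : j ≤ k + 1 := by omega
    let F := s.bg.F
    let P : Option κ → BC s k →L[ℝ] F.H j (triv X.M ℂ) := fun a =>
      F.incl (k + 1) j _ ∘L F.mulH (k + 1) _ (triv X.M ℂ) fun _ => pj ℂ a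
    let Y : Option κ → F.H j (triv X.M ℂ) →L[ℝ] F.H j (triv X.M ℂ) := fun a =>
      (F.bilH j (k + 1) _ _ (triv X.M ℂ) j fun _ => iz a).flip (v.1 - w.1)
    have e : ∀ u a, DH F.toPre j _ a (F.incl (k + 2) (j + 1) _ u) =
        P a (Γ.D.T v w u).1 + Y a (F.incl (k + 2) j _ u) := fun u a => by
      rw [← incl_DH hj', DH_eq Γ hs hk v w, map_add, incl_bilH (sup hs.bg) (Lev.left (by omega)
        (by omega)) (Lev.right (by omega) hj') (by omega) le_rfl hj' (Cb_const _) (Maps₂.triv _),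
        incl_self]
      rfl
    refine ⟨1 + ∑ a, (‖P a‖ + ‖Y a‖ * c), by positivity, fun u => ?_⟩
    set t := ‖(Γ.D.T v w u).1‖
    set r := ‖F.incl (k + 2) 0 _ u‖
    have t0 : 0 ≤ t := norm_nonneg _
    have r0 : 0 ≤ r := norm_nonneg _
    have h1 : ∀ a, ‖DH F.toPre j _ a (F.incl (k + 2) (j + 1) _ u)‖ ≤
        (‖P a‖ + ‖Y a‖ * c) * (t + r) := fun a => by
      rw [e, add_mul, mul_assoc]
      exact (norm_add_le _ _).trans (add_le_add ((P a).le_opNorm_of_le (by linarith))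
        ((Y a).le_opNorm_of_le (hc u)))
    have h2 := norm_succ_sq (F.incl (k + 2) (j + 1) _ u)
    rw [incl_incl hj (Nat.zero_le _)] at h2
    have h3 := Finset.sum_sq_le_sq_sum_of_nonneg (s := Finset.univ)
      fun a _ => norm_nonneg (DH F.toPre j _ a (F.incl (k + 2) (j + 1) _ u))
    have h4 := Finset.sum_le_sum fun a (_ : a ∈ Finset.univ) => h1 a
    have h5 := Finset.sum_nonneg (s := Finset.univ)
      fun a _ => norm_nonneg (DH F.toPre j _ a (F.incl (k + 2) (j + 1) _ u))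
    rw [← Finset.sum_mul] at h4
    refine (abs_le_of_sq_le_sq' (b := r + ∑ a, ‖DH F.toPre j _ a
      (F.incl (k + 2) (j + 1) _ u)‖) (by nlinarith) (by positivity)).2.trans ?_
    linarith

variable (hβ : s.Cr σ.β) (h0 : ∀ i b, s.Inf i b → ∃ y, (σ.β i b).Φ y ≠ 0)
include hβ h0

/-- the Poincaré inequality in the Banach model -/
theorem poiH : ∃ (χ : X.M → ℝ) (c : ℝ), Sm X.I χ ∧ HasCompactSupport χ ∧ 0 ≤ c ∧ ∀ u : RC s k,
    ‖s.bg.F.incl (k + 2) 0 _ u‖ ^ 2 ≤ ‖smulH s.bg.F.toPre 0 _ χ (s.bg.F.incl (k + 2) 0 _ u)‖ ^ 2 +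
      c * (‖s.bg.F.incl (k + 1) 0 _ (Γ.D.del u)‖ ^ 2 + ‖s.bg.F.incl (k + 1) 0 _ (Γ.D.ds u).1‖ ^ 2) := by
  have hS := sup hs.bg
  have k1 : 4 ≤ k + 1 := by omega
  obtain ⟨χ, c, h1, h2, c0, h⟩ := poiX ℂ hs hβ h0
  refine ⟨χ, c, h1, h2, c0, H_le (by fun_prop) (by fun_prop) fun φ => ?_⟩
  have i1 := Is.val hS k1 (Γ.D.del (s.bg.F.toH _ _ φ))
  have i2 := Is.val hS k1 (Γ.D.ds (s.bg.F.toH _ _ φ)).1
  have i3 := sq_zero (((Is.toH (F := s.bg.F.toPre) φ).incl (Nat.zero_le (k + 2))).smulH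
    (Cb_of_hcs h1 h2))
  rw [incl_self] at i3
  rw [i3, sq_zero (Is.toH φ), sq_zero i1, sq_zero i2, ← integral_add (int_sq i1.memLp) (int_sq i2.memLp)]
  refine h _ _ φ.2.1 φ.2.2.1 (((continuous_val hS k1 _).norm.pow 2).add
    ((continuous_val hS k1 _).norm.pow 2)) ((int_sq i1.memLp).add (int_sq i2.memLp))
    fun x => le_of_eq ?_
  simp only [PiLp.norm_sq_eq_of_L2 _ (s.bg.F.val _ _ (Γ.D.del _) x), Γ.del, (Γ.ds _).2,
    sq_cs hs.bg.m.Jsq hs.bg.m.Jsk, val_toH hS (show 4 ≤ k + 2 by omega)]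

theorem prop (v w : σ.C k) : Grp76.PropAt Γ.D.Gr v w := by
  have hS := sup hs.bg
  have k1 : 4 ≤ k + 1 := by omega
  have k2 : 4 ≤ k + 2 := by omega
  let F := s.bg.F
  obtain ⟨χ, c, h1, h2, c0, h⟩ := poiH Γ hs hk hβ h0
  obtain ⟨c1, d0, h3⟩ := est_lev Γ hs hk v w (k + 2) le_rfl
  let A := Γ.D.l.flip (Γ.D.pa v - Γ.D.pa w)
  let B := ContinuousLinearMap.fst ℝ _ _ ∘L Γ.D.a.flip (Γ.D.ps v)
  have vA : ∀ u x, F.val _ _ (A u) x = onF _ (ContinuousLinearMap.mul ℝ ℂ) (F.val _ _ u x)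
      (F.val _ _ (Γ.D.pa v - Γ.D.pa w) x) := fun u x =>
    PiLp.ext fun a => (Γ.l u _ x a).trans (Grp76.onF_apply (.mul ℝ ℂ) _ _ a).symm
  have vB : ∀ u x, F.val _ _ (B u) x = cB s.bg.m.J (F.val _ _ u x) (F.val _ _ (Γ.D.ps v).1 x) :=
    fun u => (Γ.a u _).2
  have n2 : ∀ (g : Γ.D.Gr) x, ‖F.val _ _ g.v x‖ ≤ 2 := fun g x => by
    rw [← u_sub]
    exact (norm_sub_le _ _).trans (by rw [norm_u, norm_one]; norm_num)
  have bd : ∀ {V W : Type} [NormedAddCommGroup V] [NormedSpace ℝ V] [NormedAddCommGroup W]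
      [NormedSpace ℝ W] (β : ℂ →L[ℝ] V →L[ℝ] W) (g : Γ.D.Gr) x b,
      ‖β (F.val _ _ g.v x) b‖ ≤ ‖β‖ * 2 * ‖b‖ := fun β g x b =>
    (β.le_opNorm₂ _ _).trans (by gcongr; exact n2 g x)
  let φ : Sec X.I (triv X.M ℝ) := ⟨χ, mem_triv h1 h2⟩
  have a1 := fun g : Γ.D.Gr => le_zero (((Is.val hS k2 g.v).incl (Nat.zero_le _)).smulH
    (Cb_of_hcs h1 h2)) (Is.toH (k := 0) φ) (C := 2) fun x => by
      rw [norm_smul, mul_comm]
      exact mul_le_mul_of_nonneg_right (n2 g x) (norm_nonneg _)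
  simp only [incl_self] at a1
  have a2 := fun g : Γ.D.Gr => le_zero (Is.val hS k1 (A g.v)) (Is.val hS k1 (Γ.D.pa v - Γ.D.pa w))
    fun x => (congrArg norm (vA g.v x)).trans_le (bd _ g x _)
  have a3 := fun g : Γ.D.Gr => le_zero (Is.val hS k1 (B g.v)) (Is.val hS k1 (Γ.D.ps v).1)
    fun x => (congrArg norm (vB g.v x)).trans_le (bd _ g x _)
  refine GA.Est.propAt (K := ((smulH F.toPre 0 _ χ).comp (F.incl (k + 2) 0 _)).prod
    ((F.incl (k + 1) 0 _ ∘L A).prod (F.incl (k + 1) 0 _ ∘L B))) ⟨cpt_prod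
      (Cht98.rellich_smul h1 h2 (by omega)) (cpt_prod (cpt_bil hS hk (m_onF _) _ vA)
        (cpt_bil hS hk (m_cB hs.bg) _ vB)), ⟨_, fun g => max_le_max (a1 g) (max_le_max (a2 g) (a3 g))⟩,
    c1 * (1 + √(1 + 2 * c)), fun u => ?_⟩
  have e1 : Γ.D.del u = (Γ.D.T v w u).1 + A u := by
    simp only [GA.T_apply, Γ.r, A, _root_.sub_apply, ContinuousLinearMap.flip_apply, map_sub]; abel
  have e2 : (Γ.D.ds u).1 = (Γ.D.T v w u).2.1 - B u := (add_sub_cancel_left _ _).symm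
  set K := ((smulH F.toPre 0 _ χ).comp (F.incl (k + 2) 0 _)).prod
    ((F.incl (k + 1) 0 _ ∘L A).prod (F.incl (k + 1) 0 _ ∘L B))
  set t := ‖Γ.D.T v w u‖ + ‖K u‖
  have t1 := norm_fst_le (Γ.D.T v w u)
  have t2 := (norm_fst_le _).trans (norm_snd_le (Γ.D.T v w u))
  have b0 : ‖smulH F.toPre 0 _ χ (F.incl (k + 2) 0 _ u)‖ ≤ t :=
    (norm_fst_le (K u)).trans (le_add_of_nonneg_left (norm_nonneg _))
  have b1 : ‖F.incl (k + 1) 0 _ (Γ.D.del u)‖ ≤ t := by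
    rw [e1, map_add]
    exact (norm_add_le _ _).trans (add_le_add ((norm_incl_le (Nat.zero_le _) _).trans t1)
      ((norm_fst_le (K u).2).trans (norm_snd_le _)))
  have b2 : ‖F.incl (k + 1) 0 _ (Γ.D.ds u).1‖ ≤ t := by
    rw [e2, map_sub]
    exact (norm_sub_le _ _).trans (add_le_add ((norm_incl_le (Nat.zero_le _) _).trans t2)
      ((norm_snd_le (K u).2).trans (norm_snd_le _)))
  have t0 : 0 ≤ t := by positivity
  have b3 : ‖F.incl (k + 2) 0 _ u‖ ≤ √(1 + 2 * c) * t := by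
    refine (pow_le_pow_iff_left₀ (norm_nonneg _) (by positivity) two_ne_zero).1 ((h u).trans ?_)
    rw [mul_pow, Real.sq_sqrt (by positivity)]
    calc _ ≤ t ^ 2 + c * (t ^ 2 + t ^ 2) := by gcongr
      _ = _ := by ring
  have b4 := h3 u
  rw [incl_self] at b4
  rw [mul_assoc, add_mul, one_mul]
  exact b4.trans (mul_le_mul_of_nonneg_left (add_le_add (t1.trans (le_add_of_nonneg_right
    (norm_nonneg _))) b3) d0)

omit hβ h0 in
theorem free {v : σ.C k} (h : ∃ x, s.bg.F.val _ _ v.2.1 x + (s.base σ.β).Φ x ≠ 0) (g : Γ.D.Gr)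
    (e : g • v = v) : g = 1 := by
  obtain ⟨x₀, h⟩ := h
  rw [GA.smul_eq_self_iff] at e
  have := hs.con
  have h1 := fun x a => val_T1 Γ v v g.v x a
  have h2 := congrArg (‖·‖ ^ 2) (val_T2 Γ v v g.v x₀)
  simp only [e, sub_self, Prod.fst_zero, Prod.snd_zero, val_zero, Pi.zero_apply, PiLp.zero_apply,
    Complex.ofReal_zero, mul_zero, sub_zero, sq_cs hs.bg.m.Jsq hs.bg.m.Jsk] at h1 h2
  refine GA.Gr.ext (val_injective (sup hs.bg) (by omega) (funext fun x => ?_))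
  rw [const_D _ (md_v hs hk g.v) (fun a x => (h1 x a).symm) x x₀, GA.v_one, val_zero]
  simpa [h] using h2

omit hs hk Γ hβ h0 in
variable (d ty X nc nr T) in
/-- **MS-GRP-P** -/
theorem grpP : GrpP d ty X nc nr T := fun _ _ h k hk Γ y hy =>
  ⟨fun _ => prop Γ h.ok.site hk h.cr (fun i b hb => (h.OK.gd i b hb).irr) _ _,
    free Γ h.ok.site hk (hy.imp fun x hx => by
      rwa [Pb50.val_Φ h.ok h.cr (show 3 ≤ k by omega), Pi.sub_apply, sub_add_cancel])⟩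

end Crest.Agent.X212.Grs81
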