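import Crest.Agent.X212.Map77.S1
import Crest.Agent.X212.Grp76.Est
import Crest.Agent.X212.Pb50.Pt

/-! # Row 212, MS-GRP-A (helper81): the gauge algebra of a cell -/

set_option autoImplicit false
set_option linter.unusedSectionVars false
noncomputable section
open scoped Manifold ContDiff Topology InnerProductSpace
open MeasureTheory Set Function Filter

namespace Crest.Agent.X212.Grs81
open An An.Pre Sob92 Sw Sw.En3 Map77.S
open M (Mf)
open Grp76 (tp pj ij onF tp_apply pj_apply sum_ij onF_apply GA)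
open Wz78 (idx_apply frm)

section lin
variable {α U V M : Type} [Fintype α] [NormedAddCommGroup U] [InnerProductSpace ℝ U]
  [NormedAddCommGroup V] [InnerProductSpace ℝ V]

/-- a linear map acting on the values of forms -/
def fm (α : Type) [Fintype α] (L : U →L[ℝ] V) : Fm α U →L[ℝ] Fm α V := tp fun a => L ∘L pj U a

theorem fm_apply (L : U →L[ℝ] V) (η : Fm α U) (a : α) : fm α L η a = L (η a) := rfl

/-- forms with values in `V` -/
abbrev iP (V : Type) [NormedAddCommGroup V] [InnerProductSpace ℝ V] (P : α → α → M → ℝ) (x : M) :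
    Fm α V →L[ℝ] Fm α V := idx (fun i j => P i j x) (ContinuousLinearMap.id ℝ V)

variable {P : α → α → M → ℝ}

theorem iP_iff {x : M} {η : Fm α V} : iP V P x η = η ↔ ∀ a, ∑ b, P a b x • η b = η a := by
  simp only [PiLp.ext_iff, idx_apply, ContinuousLinearMap.id_apply]

theorem m_fm (L : U →L[ℝ] V) : Maps (iP U P) (iP V P) fun _ => fm α L := fun x η h => by
  rw [iP_iff] at h ⊢
  simp only [fm_apply, ← map_smul, ← map_sum, h, implies_true]

theorem m_onF {p : M → U →L[ℝ] U} (β : U →L[ℝ] V →L[ℝ] V) :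
    Maps₂ p (iP V P) (iP V P) fun _ => onF α β := fun x u η _ h => by
  rw [iP_iff] at h ⊢
  simp only [onF_apply, ← map_smul, ← map_sum, h, implies_true]

/-- multiplication by `i` of a real number -/
def iR : ℝ →L[ℝ] ℂ := (ContinuousLinearMap.id ℝ ℝ).smulRight Complex.I

theorem iR_apply (r : ℝ) : iR r = Complex.I * r := by simp [iR, mul_comm]

/-- conjugation -/
abbrev cj : ℂ →L[ℝ] ℂ := Complex.conjCLE

theorem cj_apply (z : ℂ) : cj z = star z := rfl

theorem iR_im {z : ℂ} (h : star z = -z) : Complex.I * (z.im : ℝ) = z := by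
  have := congrArg Complex.re h
  simp only [Complex.star_def, Complex.conj_re, Complex.neg_re] at this
  exact Complex.ext (by simp; linarith) (by simp)

end lin

variable {κ lam ν : Type} [Fintype κ] [Fintype lam] [Fintype ν] [DecidableEq ν]
  {X : Mf 4} {nc' : ℕ} {b : Bg X.I X.M κ lam ν nc'}

section bg
variable (hb : b.OK)
include hb

theorem sup : Sup b.F.toPre (hb.tame.choose 0) := Sup.of_tame hb.tame.choose_spec

theorem cP (i j : Option κ) : b.F.Cb (b.B.P i j) := hb.G.P ▸ ⟨_, hb.tame.choose_spec.P i j⟩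

theorem c_iP (V : Type) [NormedAddCommGroup V] [InnerProductSpace ℝ V] : b.F.Cb (iP V b.B.P) := by
  have : iP V b.B.P = fun x => tp fun a => ∑ c, b.B.P a c x • pj V c := by
    funext x
    ext1 η
    ext1 a
    simp [idx_apply]
  rw [this]
  exact Grp76.Cb_tp fun a => Cb_sum _ fun c _ => Cb_smul (cP hb a c) (Cb_const _)

theorem iP_idem {V : Type} [NormedAddCommGroup V] [InnerProductSpace ℝ V] (x : X.M)
    (η : Fm (Option κ) V) : iP V b.B.P x (iP V b.B.P x η) = iP V b.B.P x η := by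
  rw [Wz78.idx_idx]
  simp only [(hb.B.pr x).idem]
  rfl

theorem projD {V : Type} [NormedAddCommGroup V] [NormedSpace ℝ V] (u : X.M → V) (a : Option κ)
    (x : X.M) : ∑ c, b.B.P a c x • b.F.D c u x = b.F.D a u x :=
  hb.G.P ▸ (frm b.F).projD a u x

theorem m_cB : Maps₂ (triv X.M ℂ) b.pp b.pp fun _ => Pb50.cB b.m.J := fun x z v _ h =>
  (Pb50.cs_comm (Pb50.Jpp hb x) z v).trans (congrArg _ h)

end bg

variable {d : Dt κ lam ν} {N : Type} [Fintype N] {ty : N → d.𝓔} {nc nr : ℕ}
  {T : Type} [NormedAddCommGroup T] [NormedSpace ℝ T] [FiniteDimensional ℝ T]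
  {s : Pz X 0 fun i => d.e (ty i)} {σ : Cel s nc nr T} {k : ℕ}

variable (s k) in
/-- complex functions -/
abbrev RC : Type := s.bg.F.H (k + 2) (triv X.M ℂ)

variable (s k) in
/-- complex one-forms -/
abbrev BC : Type := s.bg.F.H (k + 1) (p1C (s := s))

/-- the action on spinors -/
def aH : RC s k →L[ℝ] s.bg.F.H (k + 1) s.bg.pp →L[ℝ] s.bg.F.H (k + 1) s.bg.pp :=
  s.bg.F.bilH (k + 2) (k + 1) _ _ _ (k + 1) fun _ => Pb50.cB s.bg.m.J

/-- the action on spinors and parameters -/
def aS : RC s k →L[ℝ] s.bg.F.H (k + 1) s.bg.pp × T →L[ℝ] s.bg.F.H (k + 1) s.bg.pp × T :=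
  ((ContinuousLinearMap.compL ℝ (s.bg.F.H (k + 1) s.bg.pp × T) (s.bg.F.H (k + 1) s.bg.pp)
    (s.bg.F.H (k + 1) s.bg.pp × T) (ContinuousLinearMap.inl ℝ _ _)).comp
    ((ContinuousLinearMap.compL ℝ (s.bg.F.H (k + 1) s.bg.pp × T) (s.bg.F.H (k + 1) s.bg.pp)
      (s.bg.F.H (k + 1) s.bg.pp)).flip (ContinuousLinearMap.fst ℝ _ _))).comp aH

theorem aS_apply (u : RC s k) (y : s.bg.F.H (k + 1) s.bg.pp × T) : aS u y = (aH u y.1, 0) := rfl

theorem ga (hs : s.OK) (hβ : s.Cr σ.β) (hk : 7 ≤ k) : Nonempty (Ga σ k) := by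
  have hb := hs.bg
  have hS := sup hb
  have k1 : 4 ≤ k + 1 := by omega
  have k2 : 4 ≤ k + 2 := by omega
  have lv : Lev (k + 2) (k + 1) (k + 1) := Lev.left (by omega) (by omega)
  let F := s.bg.F
  let m : RC s k →L[ℝ] RC s k →L[ℝ] RC s k :=
    F.bilH (k + 2) (k + 2) _ _ _ (k + 2) fun _ => ContinuousLinearMap.mul ℝ ℂ
  let st : RC s k →L[ℝ] RC s k := F.mulH (k + 2) _ _ fun _ => cj
  let l : RC s k →L[ℝ] BC s k →L[ℝ] BC s k :=
    F.bilH (k + 2) (k + 1) _ _ _ (k + 1) fun _ => onF _ (ContinuousLinearMap.mul ℝ ℂ)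
  let sb : BC s k →L[ℝ] BC s k := F.mulH (k + 1) _ _ fun _ => fm _ cj
  let del : RC s k →L[ℝ] BC s k := F.opH (k + 1) _ _ (fun a x => iP ℂ s.bg.B.P x ∘L ij ℂ a) fun _ => 0
  let ds : RC s k →L[ℝ] F.H (k + 1) s.bg.pp := (F.mulH (k + 1) _ _
    fun x => (Pb50.cB s.bg.m.J).flip ((s.base σ.β).Φ x)) ∘L F.incl (k + 2) (k + 1) _
  let pa : F.H (k + 1) s.bg.p1 →L[ℝ] BC s k := F.mulH (k + 1) _ _ fun _ => fm _ iR
  let qa : BC s k →L[ℝ] F.H (k + 1) s.bg.p1 := F.mulH (k + 1) _ _ fun _ => fm _ Complex.imCLM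
  let j : HR s (k + 2) →L[ℝ] RC s k := F.mulH (k + 2) _ _ fun _ => iR
  let q : RC s k →L[ℝ] HR s (k + 2) := F.mulH (k + 2) _ _ fun _ => Complex.imCLM
  have vm : ∀ u v x, F.val _ _ (m u v) x = F.val _ _ u x * F.val _ _ v x :=
    val_bilH hS (Lev.self (by omega)) k2 (Cb_const _) (Maps₂.triv _)
  have vs : ∀ u x, F.val _ _ (st u) x = star (F.val _ _ u x) :=
    val_mulH hS k2 (Cb_const _) (Maps.triv _)
  have vl : ∀ u η x a, F.val _ _ (l u η) x a = F.val _ _ u x * F.val _ _ η x a := fun u η x a =>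
    (congrArg (pj ℂ a) (val_bilH hS lv k1 (Cb_const _) (m_onF _) u η x)).trans (onF_apply _ _ _ _)
  have vb : ∀ η x a, F.val _ _ (sb η) x a = star (F.val _ _ η x a) := fun η x a =>
    congrArg (pj ℂ a) (val_mulH hS k1 (Cb_const _) (m_fm cj) η x)
  have vd : ∀ u x a, F.val _ _ (del u) x a = F.D a (F.val _ _ u) x := fun u x a => by
    refine (congrArg (pj ℂ a) (congrFun (val_opH (q := p1C (s := s)) hS k1
      (fun a => Cb_comp (c_iP hb ℂ) (Cb_const _)) (Cb_const _)
      (fun a x v => iP_idem hb x _) (Maps.of_left fun x v => map_zero _) u) x)).trans ?_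
    rw [← projD hb, pj_apply]
    simp only [Pre.op, ContinuousLinearMap.comp_apply, ← map_sum, _root_.zero_apply,
      add_zero, idx_apply, sum_ij, ContinuousLinearMap.id_apply]
    rfl
  have va : ∀ (u : RC s k) φ x, F.val _ _ (aH u φ) x = cs s.bg.m.J (F.val _ _ u x) (F.val _ _ φ x) :=
    val_bilH hS lv k1 (Cb_const _) (m_cB hb)
  have vt : ∀ u x, F.val _ _ (ds u) x = cs s.bg.m.J (F.val _ _ u x) ((s.base σ.β).Φ x) :=
    fun u x => by
      rw [ContinuousLinearMap.comp_apply, val_mulH hS k1 (Cb_clm _ (Pb50.cb_base_Φ hβ))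
        fun x z _ => m_cB hb x z _ rfl ((Pb50.adm_base hβ).pΦ x), val_incl hS k1 (by omega)]
      rfl
  have vp : ∀ α x a, F.val _ _ (pa α) x a = Complex.I * (F.val _ _ α x a : ℝ) := fun α x a =>
    (congrArg (pj ℂ a) (val_mulH hS k1 (Cb_const _) (m_fm iR) α x)).trans (iR_apply _)
  have vq : ∀ η x a, F.val _ _ (qa η) x a = (F.val _ _ η x a).im := fun η x a =>
    congrArg (pj ℝ a) (val_mulH hS k1 (Cb_const _) (m_fm Complex.imCLM) η x)
  have vj : ∀ ξ x, F.val _ _ (j ξ) x = Complex.I * (F.val _ _ ξ x : ℝ) := fun ξ x =>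
    (val_mulH hS k2 (Cb_const _) (Maps.triv _) ξ x).trans (iR_apply _)
  have vr : ∀ u x, F.val _ _ (q u) x = (F.val _ _ u x).im :=
    val_mulH hS k2 (Cb_const _) (Maps.triv _)
  have md : ∀ u : RC s k, MDifferentiable X.I 𝓘(ℝ, ℂ) (F.val _ _ u) := fun u => (val_DH hS k1 u).1
  have e2 : ∀ {V : Type} [NormedAddCommGroup V] [InnerProductSpace ℝ V] [CompleteSpace V]
      {u v : F.H (k + 2) (triv X.M V)}, (∀ x, F.val _ _ u x = F.val _ _ v x) → u = v :=
    fun h => val_injective hS k2 (funext h)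
  have e1 : ∀ {V : Type} [NormedAddCommGroup V] [InnerProductSpace ℝ V] [CompleteSpace V]
      {p : X.M → V →L[ℝ] V} {u v : F.H (k + 1) p}, (∀ x, F.val _ _ u x = F.val _ _ v x) → u = v :=
    fun h => val_injective hS k1 (funext h)
  exact ⟨{
    D :=
      { m := m, st := st, l := l, r := l, sb := sb, del := del, a := aS
        ds := ContinuousLinearMap.inl ℝ _ _ ∘L ds
        pa := pa ∘L ContinuousLinearMap.fst ℝ _ _
        ps := ContinuousLinearMap.snd ℝ _ _
        mk' := qa.prodMap (ContinuousLinearMap.id ℝ _)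
        j := j, q := q
        m_assoc := fun u v w => e2 fun x => by simp only [vm, mul_assoc]
        st_st := fun u => e2 fun x => by simp only [vs, star_star]
        st_m := fun u v => e2 fun x => by simp only [vs, vm, star_mul]
        normal := fun u => e2 fun x => by simp only [vs, vm, mul_comm]
        l_m := fun u v η => e1 fun x => PiLp.ext fun a => by simp only [vl, vm, mul_assoc]
        r_m := fun u v η => e1 fun x => PiLp.ext fun a => by simp only [vl, vm]; ring
        l_r := fun u v η => e1 fun x => PiLp.ext fun a => by simp only [vl]; ring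
        del_m := fun u v => e1 fun x => PiLp.ext fun a => by
          rw [val_add, Pi.add_apply, PiLp.add_apply, vl, vl, vd, vd, vd, funext (vm u v), mul_comm]
          exact dv_bil (ContinuousLinearMap.mul ℝ ℂ) (md u x) (md v x)
        sb_l := fun u η => e1 fun x => PiLp.ext fun a => by simp only [vl, vb, vs, star_mul']
        sb_r := fun u η => e1 fun x => PiLp.ext fun a => by simp only [vl, vb, vs, star_mul']
        sb_del := fun u => e1 fun x => PiLp.ext fun a => by
          rw [vb, vd, vd, funext (vs u)]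
          exact (dv_clm cj (md u x)).symm
        a_m := fun u v y => Prod.ext (e1 fun x => by
          simp only [aS_apply, va, vm, Eqv71.cs_mul hb.m.Jsq]) rfl
        ds_m := fun u v => Prod.ext (e1 fun x => by
          show F.val _ _ (ds _) x = F.val _ _ (aH u (ds v)) x
          simp only [va, vt, vm, Eqv71.cs_mul hb.m.Jsq]) rfl
        sb_pa := fun y => e1 fun x => PiLp.ext fun a => by
          show F.val _ _ (sb (pa y.1)) x a = F.val _ _ (-pa y.1) x a
          rw [val_neg, Pi.neg_apply, PiLp.neg_apply, vb, vp]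
          simp
        mk_p := fun y => Prod.ext (e1 fun x => PiLp.ext fun a => by
          show F.val _ _ (qa (pa y.1)) x a = _
          rw [vq, vp]
          simp) rfl
        pa_mk := fun η y h => e1 fun x => PiLp.ext fun a => by
          show F.val _ _ (pa (qa η)) x a = _
          rw [vp, vq]
          exact iR_im (by rw [← vb, h, val_neg]; rfl)
        ps_mk := fun _ _ => rfl
        st_j := fun ξ => e2 fun x => by
          rw [vs, val_neg, Pi.neg_apply, vj]
          simp
        q_j := fun ξ => e2 fun x => by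
          rw [vr, vj]
          simp
        j_q := fun u h => e2 fun x => by
          rw [vj, vr]
          exact iR_im (by rw [← vs, h, val_neg]; rfl) }
    m := vm, st := vs, l := vl, r := rfl, del := vd
    a := fun u φ => ⟨rfl, va u φ.1⟩
    ds := fun u => ⟨rfl, vt u⟩
    pa := fun v => vp v.1
    ps := fun _ => rfl
    j := vj }⟩

variable (d ty X nc nr T) in
/-- **MS-GRP-A** -/
theorem grpA : GrpA d ty X nc nr T := fun _ _ h _ hk => ga h.ok.site h.cr hk

end Crest.Agent.X212.Grs81
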