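import Crest.Agent.X212.Grs81.A
import Crest.Agent.X212.Grp76.Dns

/-! # Row 212, MS-GRP-S (helper81): the smooth gauge transformations in the Sobolev group -/

set_option autoImplicit false
set_option linter.unusedSectionVars false
noncomputable section
open scoped Manifold ContDiff Topology InnerProductSpace
open MeasureTheory Set Function Filter

namespace Crest.Agent.X212.Grs81
open An An.Pre Sob92 Sw Sw.En3 Map77.S
open M (Mf)
open Grp76 (pj GA Lm om)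
open Pb50 (Hi th cB cB_apply)

variable {κ lam ν : Type} [Fintype κ] [Fintype lam] [Fintype ν] [DecidableEq ν]
  {X : Mf 4} {d : Dt κ lam ν} {N : Type} [Fintype N] {ty : N → d.𝓔} {nc nr : ℕ}
  {T : Type} [NormedAddCommGroup T] [NormedSpace ℝ T] [FiniteDimensional ℝ T]
  {s : Pz X 0 fun i => d.e (ty i)} {σ : Cel s nc nr T} {k : ℕ} (Γ : Ga σ k)

theorem val_o (u v : RC s k) (x : X.M) : 1 + s.bg.F.val _ _ (Γ.D.o u v) x =
    (1 + s.bg.F.val _ _ u x) * (1 + s.bg.F.val _ _ v x) := by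
  simp only [GA.o, val_add, Pi.add_apply, Γ.m]; ring

theorem val_nn (u : RC s k) (x : X.M) : 1 + s.bg.F.val _ _ (Γ.D.nn u) x =
    star (1 + s.bg.F.val _ _ u x) * (1 + s.bg.F.val _ _ u x) := by
  rw [GA.nn_eq, val_o, Γ.st, star_add, star_one]

theorem norm_u (g : Γ.D.Gr) (x : X.M) : ‖Γ.u g x‖ = 1 := by
  have h := val_nn Γ g.v x
  rw [g.nn_v, val_zero, Pi.zero_apply, add_zero, Complex.star_def, Complex.conj_mul'] at h
  exact (pow_eq_one_iff_of_nonneg (norm_nonneg _) two_ne_zero).1 (by exact_mod_cast h.symm)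

theorem u_sub (g : Γ.D.Gr) : (fun x => Γ.u g x - 1) = s.bg.F.val _ _ g.v :=
  funext fun _ => add_sub_cancel_left _ _

theorem val_T1 (v w : σ.C k) (u : RC s k) (x : X.M) (a : Option κ) :
    s.bg.F.val _ _ (Γ.D.T v w u).1 x a = s.bg.F.D a (s.bg.F.val _ _ u) x - s.bg.F.val _ _ u x *
      (Complex.I * (s.bg.F.val _ _ (v.1 - w.1) x a : ℝ)) := by
  simp only [GA.T_apply, val_add, val_sub, Pi.add_apply, Pi.sub_apply, PiLp.add_apply,
    PiLp.sub_apply, Γ.r, Γ.l, Γ.del, Γ.pa]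
  push_cast; ring

theorem val_T2 (v w : σ.C k) (u : RC s k) (x : X.M) : s.bg.F.val _ _ (Γ.D.T v w u).2.1 x =
    cs s.bg.m.J (s.bg.F.val _ _ u x) (s.bg.F.val _ _ v.2.1 x + (s.base σ.β).Φ x) := by
  simp only [GA.T_apply, Prod.fst_add, val_add, Pi.add_apply, (Γ.a _ _).2, (Γ.ds _).2, Γ.ps,
    ← cB_apply, map_add]

theorem val_T3 (v w : σ.C k) (u : RC s k) : (Γ.D.T v w u).2.2 = 0 := by
  simp only [GA.T_apply, Prod.snd_add, (Γ.a _ _).1, (Γ.ds _).1, add_zero]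

variable (hs : s.OK) (hk : 7 ≤ k)
include hs hk

theorem md_v (u : RC s k) : MDifferentiable X.I 𝓘(ℝ, ℂ) (s.bg.F.val _ _ u) :=
  (val_DH (sup hs.bg) (by omega) u).1

theorem D_u (g : Γ.D.Gr) (a : Option κ) (x : X.M) :
    s.bg.F.D a (Γ.u g) x = s.bg.F.D a (s.bg.F.val _ _ g.v) x :=
  (dv_add (u := fun _ => (1 : ℂ)) mdifferentiableAt_const (md_v hs hk g.v x)).trans
    (by simp [D_def])

/-- the action in terms of functions -/
theorem smul_iff (g : Γ.D.Gr) (v w : σ.C k) : g • v = w ↔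
    (∀ x a, s.bg.F.D a (Γ.u g) x = Γ.u g x * (Complex.I * (s.bg.F.val _ _ (v.1 - w.1) x a : ℝ))) ∧
    (∀ x, s.bg.F.val _ _ w.2.1 x + (s.base σ.β).Φ x =
      cs s.bg.m.J (Γ.u g x) (s.bg.F.val _ _ v.2.1 x + (s.base σ.β).Φ x)) ∧ w.2.2 = v.2.2 := by
  have hS := sup hs.bg
  have k1 : 4 ≤ k + 1 := by omega
  rw [GA.smul_eq_iff, Prod.ext_iff, Prod.ext_iff, ← (val_injective hS k1).eq_iff,
    ← (val_injective hS k1).eq_iff, funext_iff, funext_iff, val_T3]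
  refine and_congr (forall_congr' fun x => PiLp.ext_iff.trans (forall_congr' fun a => ?_))
    (and_congr (forall_congr' fun x => ?_) ?_)
  · simp only [val_T1, D_u Γ hs hk, Ga.u, val_sub, Pi.sub_apply, PiLp.sub_apply, Γ.pa]
    push_cast
    exact ⟨fun h => by linear_combination h, fun h => by linear_combination h⟩
  · simp only [val_T2, Ga.u, Γ.ps, Prod.fst_sub, val_sub, Pi.sub_apply, ← cB_apply, map_add,
      _root_.add_apply]
    simp only [cB_apply, Eqv71.cs_one]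
    exact ⟨fun h => by linear_combination (norm := abel) -h,
      fun h => by linear_combination (norm := abel) -h⟩
  · simp only [Γ.ps, Prod.snd_sub]
    rw [eq_comm, sub_eq_zero]

theorem al_of_hi {g : Γ.D.Gr} (h : Hi s.bg.F.toPre (s.bg.F.val _ _ g.v)) : s.Al (Γ.u g) :=
  (Pb50.al_iff hs).2 ⟨⟨contMDiff_const.add h.1, norm_u Γ g⟩, u_sub Γ g ▸ h⟩

theorem ex_u {u : X.M → ℂ} (h : s.Al u) : ∃ g : Γ.D.Gr, Γ.u g = u := by
  obtain ⟨h1, h2⟩ := (Pb50.al_iff hs).1 h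
  obtain ⟨v, hv⟩ := Grp76.exists_val (p := triv X.M ℂ) hs.bg.tame.choose_spec h2.1
    (show 4 ≤ k + 2 by omega) (h2.2 _) fun _ => rfl
  have e : ∀ x, 1 + s.bg.F.val _ _ v x = u x := fun x => by rw [hv]; ring
  refine ⟨⟨v, val_injective (sup hs.bg) (by omega) (funext fun x => ?_)⟩, funext e⟩
  have := val_nn Γ v x
  rw [e, Pb50.star_mul_one (h1.2 x)] at this
  rw [val_zero]
  exact add_eq_left.1 this

theorem reg_u {g : Γ.D.Gr} {θ : Option κ → X.M → ℝ} (hθ : ∀ a, Hi s.bg.F.toPre (θ a))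
    (h : ∀ x a, s.bg.F.D a (Γ.u g) x = Γ.u g x * (Complex.I * θ a x)) : s.Al (Γ.u g) := by
  have hT := hs.bg.tame.choose_spec
  have h1 : ∀ a, Hi s.bg.F.toPre fun x => iR (θ a x) := fun a => (hθ a).clm iR
  have h2 : ∀ a x, s.bg.F.D a (s.bg.F.val _ _ g.v) x =
      ContinuousLinearMap.mul ℝ ℂ (iR (θ a x)) (s.bg.F.val _ _ g.v x) + iR (θ a x) := fun a x => by
    rw [← D_u Γ hs hk, h, iR_apply, Ga.u, ContinuousLinearMap.mul_apply']; ring
  have h3 := fun a => Cb_clm (ContinuousLinearMap.mul ℝ ℂ) ((h1 a).cb hT)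
  have h4 := Grp76.sm_of_lin (md_v hs hk g.v) (fun a => Grp76.cb_sm (h3 a)) (fun a => (h1 a).1) h2
  exact al_of_hi Γ hs hk ⟨h4, Grp76.fl_of_lin h4 (Is.val (sup hs.bg) (by omega) g.v).memLp h3
    (fun a => ⟨(h1 a).cb hT, (h1 a).2⟩) h2⟩

omit hs hk in
theorem val_Lm (n w : RC s k) (x : X.M) : s.bg.F.val _ _ (Lm Γ.D.m Γ.D.st (n, w)).2 x =
    (Lm (ContinuousLinearMap.mul ℝ ℂ) cj (s.bg.F.val _ _ n x, s.bg.F.val _ _ w x)).2 := by
  simp only [Lm, val_add, val_smul, Pi.add_apply, Pi.smul_apply, Γ.m, Γ.st,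
    ContinuousLinearMap.mul_apply', cj_apply]

theorem dense_al : Dense {g : Γ.D.Gr | s.Al (Γ.u g)} := by
  intro g
  have hS := sup hs.bg
  have k2 : 4 ≤ k + 2 := by omega
  let D := Γ.D
  let F := s.bg.F
  let μ := ContinuousLinearMap.mul ℝ ℂ
  rw [GA.isEmbedding_v.closure_eq_preimage_closure_image, mem_preimage]
  have : (𝓝[range (F.toH (k + 2) (triv X.M ℂ))] g.v).NeBot :=
    mem_closure_iff_nhdsWithin_neBot.1 (F.dense_toH _ _ g.v)
  have hn : Tendsto D.nn (𝓝 g.v) (𝓝 0) := D.continuous_nn.tendsto' _ _ g.nn_v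
  have hw : Tendsto (fun b => om D.m D.st (D.nn b)) (𝓝 g.v) (𝓝 0) := by
    have := (Grp76.contDiffAt_om D.m D.st).continuousAt.tendsto.comp hn
    rwa [Grp76.om_zero] at this
  have ht : Tendsto (fun b => D.o b (om D.m D.st (D.nn b))) (𝓝 g.v) (𝓝 g.v) := by
    have h1 : Continuous fun p : RC s k × RC s k => D.o p.1 p.2 := by unfold GA.o; fun_prop
    have h2 := (h1.tendsto (g.v, 0)).comp (tendsto_id.prodMk_nhds hw)
    rwa [D.o_zero] at h2
  refine mem_closure_of_tendsto (ht.mono_left (nhdsWithin_le_nhds (s := range (F.toH _ _)))) ?_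
  have h1 : Tendsto (Prod.fst : ℂ × ℂ → ℂ) (𝓝 0) (𝓝 0) := continuous_fst.tendsto' _ _ rfl
  obtain ⟨ε, ε0, hε⟩ := Metric.eventually_nhds_iff.1 ((Grp76.ev_om μ cj).and
    (h1.eventually ((Grp76.contDiffAt_om μ cj).eventually (by simp))))
  have sm : ∀ {f : RC s k → RC s k}, Tendsto f (𝓝 g.v) (𝓝 0) →
      ∀ᶠ b in 𝓝 g.v, ∀ x, ‖F.val _ _ (f b) x‖ < ε := fun {f} hf => by
    have h2 : Tendsto (fun b => √|hs.bg.tame.choose 0| * ‖f b‖) (𝓝 g.v) (𝓝 0) := by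
      simpa using hf.norm.const_mul √|hs.bg.tame.choose 0|
    exact (h2.eventually (gt_mem_nhds ε0)).mono fun b hb x =>
      (norm_val_le hS k2 _ x).trans_lt hb
  filter_upwards [self_mem_nhdsWithin, nhdsWithin_le_nhds (hn.eventually (Grp76.ev_Lm D.m D.st)),
    nhdsWithin_le_nhds (sm hn), nhdsWithin_le_nhds (sm hw)] with b ⟨u, hu⟩ h2 h3 h4
  have e1 : F.val _ _ b = u.1 := hu ▸ val_toH hS k2 u
  have h5 := fun x => hε (y := (F.val _ _ (D.nn b) x, F.val _ _ (om D.m D.st (D.nn b)) x))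
    (by rw [dist_zero_right, Prod.norm_mk]; exact max_lt (h3 x) (h4 x))
  have e2 : ∀ x, F.val _ _ (om D.m D.st (D.nn b)) x = om μ cj (F.val _ _ (D.nn b) x) := fun x =>
    ((h5 x).1 (by
      rw [← val_Lm Γ]
      exact (congrArg (fun t => F.val _ _ t x) h2).trans (congrFun val_zero x))).symm
  have e0 : ∀ x, F.val _ _ (D.nn b) x = μ (cj (1 + u.1 x)) (1 + u.1 x) - 1 := fun x => by
    rw [← e1]; exact eq_sub_of_add_eq' (val_nn Γ b x)
  have s0 : Sm X.I fun x => 1 + u.1 x := contMDiff_const.add u.2.1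
  have s1 : Sm X.I (F.val _ _ (D.nn b)) := by
    rw [funext e0]
    exact (smooth_bil μ (cj.contMDiff.comp s0) s0).sub contMDiff_const
  have s2 : Sm X.I (F.val _ _ (om D.m D.st (D.nn b))) := by
    rw [funext e2]
    exact fun x => ContMDiffAt.comp (g := om μ cj) x ((h5 x).2.of_le le_top).contMDiffAt (s1 x)
  have e3 : F.val _ _ (D.o b (om D.m D.st (D.nn b))) =
      fun x => μ (1 + u.1 x) (1 + F.val _ _ (om D.m D.st (D.nn b)) x) - 1 := funext fun x => by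
    rw [← e1]; exact eq_sub_of_add_eq' (val_o Γ b _ x)
  have s3 : Sm X.I (F.val _ _ (D.o b (om D.m D.st (D.nn b)))) :=
    e3 ▸ (smooth_bil μ s0 (contMDiff_const.add s2)).sub contMDiff_const
  refine ⟨⟨_, D.nn_o_of_Lm h2⟩, al_of_hi Γ hs hk ⟨s3, fun j => FL_of_hcs j s3
    (u.2.2.1.mono fun x hx h0 => hx ?_)⟩, rfl⟩
  show F.val _ _ (D.o b (om D.m D.st (D.nn b))) x = 0
  simp [e3, e2, e0, h0, Grp76.om_zero, μ]

omit hs in
theorem pt_act (h : Hy σ) {g : Γ.D.Gr} (hg : s.Al (Γ.u g)) (y : σ.Pnt) : ∃ y' : σ.Pnt,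
    y'.1.1 = y.1.1 ∧ y'.1.2 = (σ.P y.1.1).bg.act (Γ.u g) y.1.2 ∧ σ.pt k y' = g • σ.pt k y := by
  obtain ⟨⟨t, c⟩, ht, hc⟩ := y
  have k3 : 3 ≤ k := by omega
  refine ⟨⟨(t, (σ.P t).bg.act (Γ.u g) c), ht, Pb50.as_act (h.ok.ok t ht).toOK (fun i b hb => h.cr i b
    ((Pb50.inf_iff h.ok ht i b).1 hb)) hc ((Pb50.al_fam h.ok ht _).2 hg)⟩, rfl, rfl,
    Eq.symm ?_⟩
  rw [smul_iff Γ h.ok.site hk]
  refine ⟨fun x a => ?_, fun x => ?_, rfl⟩
  · have e1 : ∀ b, th (σ.P t).bg.F.toPre (Γ.u g) b x = ∑ j, σ.S t x b j * th s.bg.F.toPre (Γ.u g) j x :=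
      fun b => by
        simp only [th, (h.ok.mix t ht).D, Finset.mul_sum, Complex.im_sum, mul_smul_comm,
          Complex.smul_im, smul_eq_mul]
    have e2 : ∑ b, σ.Si t x a b * th (σ.P t).bg.F.toPre (Γ.u g) b x = th s.bg.F.toPre (Γ.u g) a x := by
      simp only [e1, Finset.mul_sum, ← mul_assoc]
      rw [Finset.sum_comm, ← Pb50.th_P, h.ok.site.bg.G.P]
      exact Finset.sum_congr rfl fun j _ => by rw [← Finset.sum_mul, h.ok.SiS t ht]
    rw [val_sub, Pb50.val_a h.ok h.cr k3, Pb50.val_a h.ok h.cr k3, (Pb50.LG.of_gau hg.1 x).D, ← e2]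
    simp only [Pi.sub_apply, sub_sub_sub_cancel_right, PiLp.sub_apply, Fam.al, Pb50.act_a, mul_sub,
      Finset.sum_sub_distrib, sub_sub_cancel, Complex.real_smul]
    ring
  · rw [Pb50.val_Φ h.ok h.cr k3, Pb50.val_Φ h.ok h.cr k3, Pi.sub_apply, Pi.sub_apply, sub_add_cancel,
      sub_add_cancel, ← h.ok.m t ht]
    rfl

omit hs in
theorem gsm (h : Hy σ) : Γ.Sm where
  dense := dense_al Γ h.ok.site hk
  ex _ := ex_u Γ h.ok.site hk
  act _ := pt_act Γ hk h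
  reg g y y' e := by
    have hT := h.ok.site.bg.tame.choose_spec
    refine reg_u Γ h.ok.site hk (fun a => ?_) ((smul_iff Γ h.ok.site hk g _ _).1 e).1
    rw [val_sub, Pb50.val_a h.ok h.cr (by omega), Pb50.val_a h.ok h.cr (by omega)]
    rw [sub_eq_add_neg]
    exact (((Pb50.hs_iff hT).1 (Pb50.hs_a h.ok h.cr y)).1.add
      (((Pb50.hs_iff hT).1 (Pb50.hs_a h.ok h.cr y')).1.clm (-ContinuousLinearMap.id ℝ _))).clm (pj ℝ a)

omit hs hk Γ in
variable (d ty X nc nr T) in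
/-- **MS-GRP-S** -/
theorem grpS : GrpS d ty X nc nr T := fun _ _ h _ hk Γ => gsm Γ hk h.toHy

end Crest.Agent.X212.Grs81
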